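import Mathlib

/-!
# Disjoint unions of cycles
-/

set_option autoImplicit false

namespace Vale.Agent.P048.H293

/-- The disjoint union of the cycles `C_{m 0}, C_{m 1}, …, C_{m (t-1)}`: the vertices are the pairs
`⟨i, a⟩` with `a` a vertex of the `i`-th cycle, and the edges are those of the cycles. -/
def cycleUnion {t : ℕ} (m : Fin t → ℕ) : SimpleGraph (Σ i : Fin t, Fin (m i)) where
  Adj x y := ∃ (i : Fin t) (a b : Fin (m i)),
    x = ⟨i, a⟩ ∧ y = ⟨i, b⟩ ∧ (SimpleGraph.cycleGraph (m i)).Adj a b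
  symm := by
    constructor
    rintro x y ⟨i, a, b, hx, hy, h⟩
    exact ⟨i, b, a, hy, hx, h.symm⟩
  loopless := by
    constructor
    rintro x ⟨i, a, b, hx, hy, h⟩
    have hab : (⟨i, a⟩ : Σ i : Fin t, Fin (m i)) = ⟨i, b⟩ := hx.symm.trans hy
    have : a = b := by simpa using hab
    exact h.ne this

end Vale.Agent.P048.H293
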