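import Vale.Agent.P048.H293.Tri

/-!
# Exchange argument: a short cycle and a pentagon contain a cycle of the same length and a triangle
-/

set_option autoImplicit false

open Finset

namespace Vale.Agent.P048.H293

theorem row_cases (P : Fin 5 → Bool) (h : ∀ j, ¬ (P j = true ∧ P (j + 2) = true)) :
    ∃ s : Fin 5, ∀ j, P j = true → j = s ∨ j = s + 1 := by
  revert P
  decide

def okB (s b t z x : Fin 5) : Bool :=
  z != s && z != s + 1 && z != t && z != t + 1 && x != z && x + 1 != z &&
      x != b && x != b + 1 && x + 1 != b && x + 1 != b + 1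

theorem local_cases' (s b t : Fin 5) :
    (∃ z x : Fin 5, okB s b t z x = true) ∨
    (b = s + 1 ∧ t = b + 1) ∨ (s = b + 1 ∧ b = t + 1) := by
  revert s b t
  decide

theorem local_cases (s b t : Fin 5) :
    (∃ z x : Fin 5, z ≠ s ∧ z ≠ s + 1 ∧ z ≠ t ∧ z ≠ t + 1 ∧ x ≠ z ∧ x + 1 ≠ z ∧
      x ≠ b ∧ x ≠ b + 1 ∧ x + 1 ≠ b ∧ x + 1 ≠ b + 1) ∨
    (b = s + 1 ∧ t = b + 1) ∨ (s = b + 1 ∧ b = t + 1) := by
  rcases local_cases' s b t with ⟨z, x, h⟩ | h
  · left
    refine ⟨z, x, ?_⟩
    simp only [okB, Bool.and_eq_true, bne_iff_ne, ne_eq] at h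
    tauto
  · exact Or.inr h

variable {V : Type}

/-- Two disjoint cycles. -/
def Two (G : SimpleGraph V) (l : ℕ) : Prop :=
  ∃ (f : (SimpleGraph.cycleGraph l).Copy G) (g : (SimpleGraph.cycleGraph 3).Copy G),
    ∀ i j, f.toHom i ≠ g.toHom j

theorem exchange [Fintype V] {G : SimpleGraph V} (hG : A2 G) (n : ℕ)
    (f : (SimpleGraph.cycleGraph (n + 3)).Copy G) (p : Fin 5 → V)
    (hp : Function.Injective p) (hp1 : ∀ i, G.Adj (p i) (p (i + 1)))
    (hp2 : ∀ i, ¬ G.Adj (p i) (p (i + 2))) (hfp : ∀ i j, f.toHom i ≠ p j) :
    Two G (n + 3) ∨ ∃ (s : Fin (n + 3) → Fin 5),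
      (∀ i j, j ≠ s i → j ≠ s i + 1 → G.Adj (f.toHom i) (p j)) ∧
      ∀ i, (s i = s (i - 1) + 1 ∧ s (i + 1) = s i + 1) ∨
        (s (i - 1) = s i + 1 ∧ s i = s (i + 1) + 1) := by
  classical
  have hrow : ∀ i : Fin (n + 3), ∃ s : Fin 5, ∀ j, j ≠ s → j ≠ s + 1 →
      G.Adj (f.toHom i) (p j) := by
    intro i
    obtain ⟨s, hs⟩ := row_cases (fun j => decide (¬ G.Adj (f.toHom i) (p j))) (by
      intro j hj
      simp only [decide_eq_true_eq] at hj
      have hne : p j ≠ p (j + 2) := by
        intro h
        have := hp h
        revert this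
        revert j
        intro j _ _ h
        have h2 : (2 : Fin 5) = 0 := by
          have : j + 2 = j + 0 := by rw [add_zero]; exact h.symm
          exact add_left_cancel this
        exact absurd h2 (by decide)
      rcases hG (f.toHom i) (p j) (p (j + 2)) (hfp i j) (hfp i _) hne with h | h | h
      · exact hj.1 h
      · exact hj.2 h
      · exact hp2 j h)
    refine ⟨s, ?_⟩
    intro j h1 h2
    by_contra hcon
    have := hs j (by simpa using hcon)
    rcases this with h | h
    · exact h1 h
    · exact h2 h
  choose s hs using hrow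
  by_cases hall : ∀ i, (s i = s (i - 1) + 1 ∧ s (i + 1) = s i + 1) ∨
        (s (i - 1) = s i + 1 ∧ s i = s (i + 1) + 1)
  · exact Or.inr ⟨s, hs, hall⟩
  · left
    push Not at hall
    obtain ⟨i, hi⟩ := hall
    rcases local_cases (s (i - 1)) (s i) (s (i + 1)) with h | h | h
    · obtain ⟨z, x, h1, h2, h3, h4, h5, h6, h7, h8, h9, h10⟩ := h
      have hz1 : G.Adj (f.toHom (i - 1)) (p z) := hs _ _ h1 h2
      have hz2 : G.Adj (f.toHom (i + 1)) (p z) := hs _ _ h3 h4
      have hx1 : G.Adj (f.toHom i) (p x) := hs _ _ h7 h8
      have hx2 : G.Adj (f.toHom i) (p (x + 1)) := hs _ _ h9 h10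
      obtain ⟨g, hg⟩ := copy_three hx1 hx2 (hp1 x)
      let F : Fin (n + 3) → V := fun j => if j = i then p z else f.toHom j
      have hadj : ∀ a b : Fin (n + 3), b = a + 1 → G.Adj (F a) (F b) := by
        rintro a b rfl
        have hcyc : G.Adj (f.toHom a) (f.toHom (a + 1)) := by
          apply f.toHom.map_adj
          rw [SimpleGraph.cycleGraph_adj]
          right
          rw [add_sub_cancel_left]
        simp only [F]
        by_cases ha : a = i
        · subst ha
          rw [if_pos rfl, if_neg]
          · exact hz2.symm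
          · intro h
            have : (1 : Fin (n + 3)) = 0 := by
              have h' : a + 1 = a + 0 := by rw [add_zero]; exact h
              exact add_left_cancel h'
            exact absurd this (by
              intro h0
              have := congrArg Fin.val h0
              simp at this)
        · rw [if_neg ha]
          by_cases hb : a + 1 = i
          · rw [if_pos hb]
            have : i - 1 = a := by rw [← hb, add_sub_cancel_right]
            rw [this] at hz1
            exact hz1
          · rw [if_neg hb]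
            exact hcyc
      refine ⟨⟨⟨F, ?_⟩, ?_⟩, g, ?_⟩
      · intro a b hab
        rw [SimpleGraph.cycleGraph_adj] at hab
        rcases hab with h | h
        · exact (hadj b a (by rw [← h]; abel)).symm
        · exact hadj a b (by rw [← h]; abel)
      · intro a b hab
        change F a = F b at hab
        simp only [F] at hab
        split_ifs at hab with ha hb hb
        · rw [ha, hb]
        · exact absurd hab.symm (hfp b z)
        · exact absurd hab (hfp a z)
        · exact f.injective hab
      · intro a b
        change F a ≠ g.toHom b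
        have hF : F a = p z ∨ (a ≠ i ∧ F a = f.toHom a) := by
          simp only [F]
          by_cases ha : a = i
          · left; rw [if_pos ha]
          · right; exact ⟨ha, by rw [if_neg ha]⟩
        rcases hF with h | ⟨ha, h⟩ <;> rw [h] <;> rcases hg b with h' | h' | h' <;> rw [h']
        · exact (hfp i z).symm
        · exact fun h => h5 (hp h).symm
        · exact fun h => h6 (hp h).symm
        · exact fun h => ha (f.injective h)
        · exact hfp a x
        · exact hfp a (x + 1)
    · exact absurd h.2 (hi.1 h.1)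
    · exact absurd h.2 (hi.2 h.1)

end Vale.Agent.P048.H293
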