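import Vale.Agent.P048.H293.Exch

/-!
# Exchange argument, continued
-/

set_option autoImplicit false

open Finset

namespace Vale.Agent.P048.H293

variable {V : Type}

theorem copy_five {G : SimpleGraph V} (F : Fin 5 → V) (hF : Function.Injective F)
    (h : ∀ i, G.Adj (F i) (F (i + 1))) :
    ∃ f : (SimpleGraph.cycleGraph 5).Copy G, ∀ i, f.toHom i = F i := by
  refine ⟨⟨⟨F, ?_⟩, hF⟩, fun i => rfl⟩
  intro a b hab
  rw [SimpleGraph.cycleGraph_adj] at hab
  rcases hab with h' | h'
  · have : a = b + 1 := by rw [← h']; abel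
    rw [this]
    exact (h b).symm
  · have : b = a + 1 := by rw [← h']; abel
    rw [this]
    exact h a

theorem ne_add (a : Fin 5) : a ≠ a + 1 ∧ a ≠ a + 2 ∧ a ≠ a + 3 ∧ a ≠ a + 4 ∧ a + 1 ≠ a + 2 ∧
    a + 1 ≠ a + 3 ∧ a + 1 ≠ a + 4 ∧ a + 2 ≠ a + 3 ∧ a + 2 ≠ a + 4 ∧ a + 3 ≠ a + 4 := by
  revert a
  decide

theorem two_small [Fintype V] {G : SimpleGraph V} (hG : A2 G) (n : ℕ) (hn : n ≤ 3)
    (f : (SimpleGraph.cycleGraph (n + 3)).Copy G) (p : Fin 5 → V)
    (hp : Function.Injective p) (hp1 : ∀ i, G.Adj (p i) (p (i + 1)))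
    (hp2 : ∀ i, ¬ G.Adj (p i) (p (i + 2))) (hfp : ∀ i j, f.toHom i ≠ p j) :
    Two G (n + 3) := by
  classical
  rcases exchange hG n f p hp hp1 hp2 hfp with h | ⟨s, hs, hall⟩
  · exact h
  let c : ℕ → Fin (n + 3) := fun k => k • (1 : Fin (n + 3))
  have c0 : c 0 = 0 := zero_nsmul _
  have cs : ∀ k, c (k + 1) = c k + 1 := fun k => succ_nsmul _ _
  have c1 : c 1 = 1 := one_nsmul _
  have hD : ∀ k : ℕ, s (c (k + 1)) - s (c k) = s 1 - s 0 := by
    intro k
    induction k with
    | zero => rw [c1, c0]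
    | succ k ih =>
      have h := hall (c (k + 1))
      have e1 : c (k + 1) - 1 = c k := by
        rw [cs, add_sub_cancel_right]
      rw [e1, ← cs (k + 1)] at h
      rw [← ih]
      rcases h with ⟨h1, h2⟩ | ⟨h1, h2⟩
      · rw [h2, h1]
        abel
      · rw [h1, h2]
        abel
  have hS : ∀ k : ℕ, s (c k) = s 0 + k • (s 1 - s 0) := by
    intro k
    induction k with
    | zero => rw [c0, zero_nsmul, add_zero]
    | succ k ih =>
      have h := hD k
      rw [succ_nsmul, ← add_assoc, ← ih, ← h]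
      abel
  have hcyc := hS (n + 3)
  have ccyc : c (n + 3) = 0 := by
    have := card_nsmul_eq_zero (G := Fin (n + 3)) (x := 1)
    rw [Fintype.card_fin] at this
    exact this
  rw [ccyc] at hcyc
  have hcyc' : (n + 3) • (s 1 - s 0) = 0 := by
    have : s 0 + (n + 3) • (s 1 - s 0) = s 0 + 0 := by rw [add_zero]; exact hcyc.symm
    exact add_left_cancel this
  have hdel : s 1 - s 0 = 1 ∨ s 1 - s 0 = 4 := by
    rcases hall 0 with ⟨-, h⟩ | ⟨-, h⟩
    · left
      rw [zero_add] at h
      rw [h]
      abel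
    · right
      rw [zero_add] at h
      rw [h]
      generalize s 1 = a
      revert a
      decide
  have hn' : n = 0 ∨ n = 1 ∨ n = 2 ∨ n = 3 := by omega
  rcases hn' with rfl | rfl | rfl | rfl
  · exfalso
    rcases hdel with h | h <;> rw [h] at hcyc' <;> exact absurd hcyc' (by decide)
  · exfalso
    rcases hdel with h | h <;> rw [h] at hcyc' <;> exact absurd hcyc' (by decide)
  · -- the five-cycle
    have hs3 := hS 3
    have hs1 : s 1 = s 0 + (s 1 - s 0) := by abel
    have hf1 : G.Adj (f.toHom 1) (f.toHom 2) := f.toHom.map_adj (by decide)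
    have hf2 : G.Adj (f.toHom 2) (f.toHom 3) := f.toHom.map_adj (by decide)
    have hc : c 3 = 3 := rfl
    rw [hc] at hs3
    have hN := ne_add (s 0)
    have hr0a : G.Adj (f.toHom 0) (p (s 0 + 2)) := hs 0 _ hN.2.1.symm hN.2.2.2.2.1.symm
    have hr0b : G.Adj (f.toHom 0) (p (s 0 + 3)) := hs 0 _ hN.2.2.1.symm hN.2.2.2.2.2.1.symm
    have h23 : G.Adj (p (s 0 + 2)) (p (s 0 + 3)) := by
      have := hp1 (s 0 + 2)
      rw [add_assoc] at this
      exact this
    obtain ⟨g, hg⟩ := copy_three hr0a hr0b h23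
    have fin : ∀ x y : Fin 5, (x = s 0 ∧ y = s 0 + 1 ∨ x = s 0 + 1 ∧ y = s 0) →
        G.Adj (f.toHom 3) (p x) → G.Adj (p x) (p y) → G.Adj (p y) (f.toHom 1) → Two G (2 + 3) := by
      intro x y hxy h3 hxy' h1
      have hne : x ≠ y := by
        rcases hxy with ⟨rfl, rfl⟩ | ⟨rfl, rfl⟩
        · exact hN.1
        · exact hN.1.symm
      have hx2 : x ≠ s 0 + 2 ∧ x ≠ s 0 + 3 ∧ y ≠ s 0 + 2 ∧ y ≠ s 0 + 3 := by
        rcases hxy with ⟨rfl, rfl⟩ | ⟨rfl, rfl⟩
        · exact ⟨hN.2.1, hN.2.2.1, hN.2.2.2.2.1, hN.2.2.2.2.2.1⟩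
        · exact ⟨hN.2.2.2.2.1, hN.2.2.2.2.2.1, hN.2.1, hN.2.2.1⟩
      obtain ⟨f', hf'⟩ := copy_five (G := G) ![f.toHom 1, f.toHom 2, f.toHom 3, p x, p y] (by
        have h12 : f.toHom 1 ≠ f.toHom 2 := hf1.ne
        have h23' : f.toHom 2 ≠ f.toHom 3 := hf2.ne
        have h13 : f.toHom 1 ≠ f.toHom 3 := fun h => absurd (f.injective h) (by decide)
        have hpxy : p x ≠ p y := fun h => hne (hp h)
        intro i j hij
        fin_cases i <;> fin_cases j <;>
          first
            | rfl
            | exact absurd hij h12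
            | exact absurd hij h12.symm
            | exact absurd hij h23'
            | exact absurd hij h23'.symm
            | exact absurd hij h13
            | exact absurd hij h13.symm
            | exact absurd hij hpxy
            | exact absurd hij hpxy.symm
            | exact absurd hij (hfp _ _)
            | exact absurd hij (hfp _ _).symm) (by
        intro i
        fin_cases i
        · exact hf1
        · exact hf2
        · exact h3
        · exact hxy'
        · exact h1)
      refine ⟨f', g, ?_⟩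
      intro i j
      rw [hf']
      have hq : ∀ q : V, (q = f.toHom 1 ∨ q = f.toHom 2 ∨ q = f.toHom 3 ∨ q = p x ∨ q = p y) →
          q ≠ g.toHom j := by
        intro q hq
        have h01 : f.toHom 1 ≠ f.toHom 0 := fun h => absurd (f.injective h) (by decide)
        have h02 : f.toHom 2 ≠ f.toHom 0 := fun h => absurd (f.injective h) (by decide)
        have h03 : f.toHom 3 ≠ f.toHom 0 := fun h => absurd (f.injective h) (by decide)
        rcases hg j with h' | h' | h' <;> rw [h'] <;> rcases hq with rfl | rfl | rfl | rfl | rfl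
        · exact h01
        · exact h02
        · exact h03
        · exact (hfp _ _).symm
        · exact (hfp _ _).symm
        · exact hfp _ _
        · exact hfp _ _
        · exact hfp _ _
        · exact fun h => hx2.1 (hp h)
        · exact fun h => hx2.2.2.1 (hp h)
        · exact hfp _ _
        · exact hfp _ _
        · exact hfp _ _
        · exact fun h => hx2.2.1 (hp h)
        · exact fun h => hx2.2.2.2 (hp h)
      apply hq
      fin_cases i
      · exact Or.inl rfl
      · exact Or.inr (Or.inl rfl)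
      · exact Or.inr (Or.inr (Or.inl rfl))
      · exact Or.inr (Or.inr (Or.inr (Or.inl rfl)))
      · exact Or.inr (Or.inr (Or.inr (Or.inr rfl)))
    rcases hdel with h | h
    · rw [h] at hs3 hs1
      have e3 : s 3 = s 0 + 3 := by rw [hs3]; rfl
      refine fin (s 0 + 1) (s 0) (Or.inr ⟨rfl, rfl⟩) ?_ (hp1 (s 0)).symm ?_
      · apply hs 3
        · rw [e3]; exact hN.2.2.2.2.2.1
        · rw [e3, add_assoc]; exact hN.2.2.2.2.2.2.1
      · apply SimpleGraph.Adj.symm
        apply hs 1
        · rw [hs1]; exact hN.1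
        · rw [hs1, add_assoc]; exact hN.2.1
    · rw [h] at hs3 hs1
      have e3 : s 3 = s 0 + 2 := by rw [hs3]; rfl
      refine fin (s 0) (s 0 + 1) (Or.inl ⟨rfl, rfl⟩) ?_ (hp1 (s 0)) ?_
      · apply hs 3
        · rw [e3]; exact hN.2.1
        · rw [e3, add_assoc]; exact hN.2.2.1
      · apply SimpleGraph.Adj.symm
        apply hs 1
        · rw [hs1]; exact hN.2.2.2.2.2.2.1
        · rw [hs1, add_assoc]
          intro h5
          exact hN.1 (by
            have h6 : s 0 + 1 = s 0 + 0 := h5
            rw [add_zero] at h6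
            exact h6.symm)
  · exfalso
    rcases hdel with h | h <;> rw [h] at hcyc' <;> exact absurd hcyc' (by decide)

end Vale.Agent.P048.H293
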