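import Vale.Agent.P048.H293.Exch2

/-!
# The Ramsey number of every disjoint union of cycles of length at least `n` versus `K_n`
-/

set_option autoImplicit false

open Finset

namespace Vale.Agent.P048.H293

/-! ### `n = 2` -/

theorem oneCycle_two (m : ℕ) (hm : 1 ≤ m) : OneCycle 2 m := by
  classical
  intro V _ G hV hG
  have hcard : Fintype.card (Fin m) ≤ Fintype.card V := by
    rw [Fintype.card_fin]
    omega
  obtain ⟨e⟩ := Function.Embedding.nonempty_of_card_le hcard
  refine ⟨⟨⟨e, ?_⟩, e.injective⟩⟩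
  intro a b hab
  by_contra hcon
  have hne : e a ≠ e b := fun h => hab.ne (e.injective h)
  apply hG {e a, e b}
  constructor
  · intro x hx y hy hxy hadj
    simp only [coe_insert, coe_singleton, Set.mem_insert_iff, Set.mem_singleton_iff] at hx hy
    rcases hx with rfl | rfl <;> rcases hy with rfl | rfl
    · exact hxy rfl
    · exact hcon hadj
    · exact hcon hadj.symm
    · exact hxy rfl
  · exact Finset.card_pair hne

/-! ### `n = 3` -/

variable {V : Type}

theorem a2_induce {G : SimpleGraph V} (h : A2 G) (S : Set V) : A2 (G.induce S) := by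
  intro a b c hab hac hbc
  exact h a b c (fun h => hab (Subtype.ext h)) (fun h => hac (Subtype.ext h))
    (fun h => hbc (Subtype.ext h))

/-- A cycle in a graph with independence number at most `2`. -/
theorem cycle_three [Fintype V] {G : SimpleGraph V} (hG : ∀ s : Finset V, ¬ G.IsNIndepSet 3 s)
    (l : ℕ) (hl : 3 ≤ l) (h6 : 6 ≤ Fintype.card V) (hV : 2 * (l - 1) + 1 ≤ Fintype.card V) :
    (SimpleGraph.cycleGraph l).IsContained G := by
  rcases Nat.lt_or_ge 3 l with h | h
  · exact oneCycle_of 3 l (by norm_num) hl h V G hV hG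
  · have : l = 3 := by omega
    subst this
    have hT := r33 (a2_of hG) h6
    unfold TF at hT
    push Not at hT
    obtain ⟨a, b, c, hab, hac, hbc⟩ := hT
    obtain ⟨f, -⟩ := copy_three hab hac hbc
    exact ⟨f⟩

theorem two_of [Fintype V] {G : SimpleGraph V} (hG : ∀ s : Finset V, ¬ G.IsNIndepSet 3 s)
    (l : ℕ) (hl : 3 ≤ l) (h5 : 5 + l ≤ Fintype.card V) (hV : 2 * (l - 1) + 1 ≤ Fintype.card V) :
    Two G l := by
  classical
  obtain ⟨f⟩ := cycle_three hG l hl (by omega) hV
  have hA := a2_of hG
  let S : Set V := {x : V | ∀ a, f.toHom a ≠ x}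
  have hoff : Fintype.card S + l = Fintype.card V := by
    convert card_off f
  by_cases hT : TF (G.induce S)
  · have hlt : Fintype.card S < 6 := by
      by_contra hcon
      exact r33 (a2_induce hA S) (not_lt.1 hcon) hT
    have hcard : Fintype.card S = 5 := by omega
    obtain ⟨p, hp, hp1, hp2⟩ := pentagon (a2_induce hA S) hT hcard
    obtain ⟨n, rfl⟩ : ∃ n, l = n + 3 := ⟨l - 3, by omega⟩
    have hn : n ≤ 3 := by omega
    refine two_small hA n hn f (fun i => (p i : V)) (fun i j h => hp (Subtype.ext h)) hp1 hp2 ?_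
    intro i j
    exact (p j).2 i
  · unfold TF at hT
    push Not at hT
    obtain ⟨a, b, c, hab, hac, hbc⟩ := hT
    obtain ⟨g, hg⟩ := copy_three (G := G) (a := a) (b := b) (c := c) hab hac hbc
    refine ⟨f, g, ?_⟩
    intro i j
    rcases hg j with h | h | h <;> rw [h]
    · exact a.2 i
    · exact b.2 i
    · exact c.2 i

theorem contained_two {m : Fin 2 → ℕ} {G : SimpleGraph V} (h1 : m 1 = 3) (h : Two G (m 0)) :
    (cycleUnion m).IsContained G := by
  obtain ⟨f, g, hfg⟩ := h
  let S : Set V := {x : V | ∀ a, f.toHom a ≠ x}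
  refine glue m G f S (fun a h => h a rfl) ?_
  have g' : (SimpleGraph.cycleGraph (m (0 : Fin 1).succ)).Copy (G.induce S) := by
    have e : m (0 : Fin 1).succ = 3 := h1
    rw [e]
    exact ⟨⟨fun a => ⟨g.toHom a, fun b => hfg b a⟩, fun h => g.toHom.map_adj h⟩,
      fun a b h => g.injective (congrArg Subtype.val h)⟩
  exact glue (fun i => m i.succ) (G.induce S) g' ∅ (fun a h => h) (contained_zero _ _)

theorem upper_three : ∀ (t : ℕ) (m : Fin (t + 2) → ℕ) (_ : ∀ i, 3 ≤ m i)
    {V : Type} [Fintype V] (G : SimpleGraph V)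
    (_ : ∀ i, 2 * (m i - 1) + 1 + ∑ j ∈ Finset.Iio i, m j ≤ Fintype.card V)
    (_ : ∀ s : Finset V, ¬ G.IsNIndepSet 3 s), (cycleUnion m).IsContained G := by
  classical
  intro t
  induction t with
  | zero =>
    intro m hm V _ G hV hG
    have h1 := hV 1
    have h0 := hV 0
    have e1 : ∑ j ∈ Finset.Iio (1 : Fin 2), m j = m 0 := by
      have : Finset.Iio (1 : Fin 2) = {0} := by decide
      rw [this, Finset.sum_singleton]
    rw [e1] at h1
    have hm0 := hm 0
    have hm1 := hm 1
    rcases Nat.lt_or_ge 3 (m 1) with h | h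
    · -- the second cycle is not a triangle: greedy
      obtain ⟨f⟩ := cycle_three hG (m 0) hm0 (by omega) (by omega)
      have hoff := card_off f
      refine glue m G f {x : V | ∀ a, f.toHom a ≠ x} (fun a h => h a rfl) ?_
      refine upper 3 1 (fun i => m i.succ) ?_ _ ?_ (indep_induce hG)
      · intro i
        have : i = 0 := Subsingleton.elim _ _
        subst this
        exact oneCycle_of 3 (m 1) (by norm_num) hm1 h
      · intro i
        have : i = 0 := Subsingleton.elim _ _
        subst this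
        have e2 : ∑ j ∈ Finset.Iio (0 : Fin 1), m j.succ = 0 := by
          have : Finset.Iio (0 : Fin 1) = ∅ := by decide
          rw [this, Finset.sum_empty]
        change 2 * (m 1 - 1) + 1 + ∑ j ∈ Finset.Iio (0 : Fin 1), m j.succ ≤ _
        rw [e2]
        omega
    · have h3 : m 1 = 3 := by omega
      exact contained_two h3 (two_of hG (m 0) hm0 (by omega) (by omega))
  | succ t ih =>
    intro m hm V _ G hV hG
    have h0 := hV 0
    have h1 := hV 1
    have hm1 := hm 1
    have hm0 := hm 0
    have e1 : ∑ j ∈ Finset.Iio (1 : Fin (t + 1 + 2)), m j = m 0 := by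
      have h := sum_succ m (0 : Fin (t + 2))
      have h' : Finset.Iio (0 : Fin (t + 2)) = ∅ := by
        ext x
        simp
      rw [h', Finset.sum_empty, add_zero] at h
      exact h
    rw [e1] at h1
    obtain ⟨f⟩ := cycle_three hG (m 0) hm0 (by omega) (by omega)
    have hoff := card_off f
    refine glue m G f {x : V | ∀ a, f.toHom a ≠ x} (fun a h => h a rfl) ?_
    refine ih (fun i => m i.succ) (fun i => hm i.succ) _ ?_ (indep_induce hG)
    intro i
    have h2 := hV i.succ
    rw [sum_succ] at h2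
    omega

/-! ### the theorem -/

theorem component (t : ℕ) (m : Fin t → ℕ) (i : Fin t) :
    (SimpleGraph.cycleGraph (m i)).IsContained (cycleUnion m) := by
  refine ⟨⟨⟨fun a => ⟨i, a⟩, ?_⟩, ?_⟩⟩
  · intro a b h
    exact ⟨i, a, b, rfl, rfl, h⟩
  · intro a b h
    have : (⟨i, a⟩ : Σ i : Fin t, Fin (m i)) = ⟨i, b⟩ := h
    simpa using this

theorem upper_full (n t : ℕ) (hn : 2 ≤ n) (m : Fin t → ℕ)
    (hm : ∀ i, n ≤ m i ∧ 3 ≤ m i) (hex : ¬ (n = 3 ∧ t = 1 ∧ ∀ i, m i = 3))
    {V : Type} [Fintype V] (G : SimpleGraph V)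
    (hV : ∀ i, (n - 1) * (m i - 1) + 1 + ∑ j ∈ Finset.Iio i, m j ≤ Fintype.card V)
    (hG : ∀ s : Finset V, ¬ G.IsNIndepSet n s) : (cycleUnion m).IsContained G := by
  rcases Nat.lt_or_ge 3 n with h | h
  · exact upper n t m (fun i => oneCycle_of n (m i) (by omega) (hm i).1
      (by have := (hm i).1; omega)) G hV hG
  · have hcases : n = 2 ∨ n = 3 := by omega
    rcases hcases with rfl | rfl
    · exact upper 2 t m (fun i => oneCycle_two (m i) (by have := (hm i).2; omega)) G hV hG
    · rcases t with _ | _ | t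
      · exact contained_zero m G
      · have h4 : ∀ i, 4 ≤ m i := by
          intro i
          have h1 : ¬ ∀ i, m i = 3 := fun h => hex ⟨rfl, rfl, h⟩
          push Not at h1
          obtain ⟨k, hk⟩ := h1
          have : i = k := Fin.ext (by have := i.2; have := k.2; omega)
          subst this
          have := (hm i).2
          omega
        exact upper 3 1 m (fun i => oneCycle_of 3 (m i) (by norm_num) (hm i).1 (h4 i)) G hV hG
      · exact upper_three t m (fun i => (hm i).2) G hV hG

/-- The Ramsey number of `C_{m 0} ∪ ⋯ ∪ C_{m (t-1)}` versus `K_n`; the only exception is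
`(C_3, K_3)`. -/
theorem ramsey_full (n t : ℕ) (hn : 2 ≤ n) (m : Fin t → ℕ) (hanti : Antitone m)
    (hm : ∀ i, n ≤ m i ∧ 3 ≤ m i) :
    IsLeast {N : ℕ | ∀ G : SimpleGraph (Fin N),
      (cycleUnion m).IsContained G ∨ ∃ s : Finset (Fin N), G.IsNIndepSet n s}
      (Finset.univ.sup fun i : Fin t => (n - 1) * (m i - 1) + 1 + ∑ j ∈ Finset.Iio i, m j) ↔
    ¬ (n = 3 ∧ t = 1 ∧ ∀ i, m i = 3) := by
  classical
  constructor
  · rintro h ⟨rfl, rfl, h3⟩
    have e0 : m 0 = 3 := h3 0
    apply not_three_three
    have e1 : (Finset.univ.sup fun i : Fin 1 => (3 - 1) * (m i - 1) + 1 +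
        ∑ j ∈ Finset.Iio i, m j) = (3 - 1) * (3 - 1) + 1 := by
      have hu : (Finset.univ : Finset (Fin 1)) = {0} := rfl
      have e2 : Finset.Iio (0 : Fin 1) = ∅ := by decide
      rw [hu, Finset.sup_singleton, e2, Finset.sum_empty, e0, add_zero]
    rw [e1] at h
    have key : ∀ (N : ℕ) (G : SimpleGraph (Fin N)),
        (cycleUnion m).IsContained G ↔ (SimpleGraph.cycleGraph 3).IsContained G := by
      intro N G
      constructor
      · intro hc
        have := (component 1 m 0).trans hc
        rwa [e0] at this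
      · rintro ⟨f⟩
        have f' : (SimpleGraph.cycleGraph (m 0)).Copy G := by rw [e0]; exact f
        exact glue m G f' ∅ (fun a h => h) (contained_zero _ _)
    have hset : {N : ℕ | ∀ G : SimpleGraph (Fin N),
        (cycleUnion m).IsContained G ∨ ∃ s : Finset (Fin N), G.IsNIndepSet 3 s} =
        {N : ℕ | ∀ G : SimpleGraph (Fin N),
        (SimpleGraph.cycleGraph 3).IsContained G ∨ ∃ s : Finset (Fin N), G.IsNIndepSet 3 s} := by
      ext N
      constructor
      · intro hN G
        rcases hN G with h | h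
        · exact Or.inl ((key N G).1 h)
        · exact Or.inr h
      · intro hN G
        rcases hN G with h | h
        · exact Or.inl ((key N G).2 h)
        · exact Or.inr h
    rw [hset] at h
    exact h
  · intro hex
    constructor
    · intro G
      by_cases h : ∃ s, G.IsNIndepSet n s
      · exact Or.inr h
      · left
        push Not at h
        refine upper_full n t hn m hm hex G ?_ h
        intro i
        rw [Fintype.card_fin]
        exact Finset.le_sup (f := fun i : Fin t => (n - 1) * (m i - 1) + 1 +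
          ∑ j ∈ Finset.Iio i, m j) (Finset.mem_univ i)
    · intro N hN
      refine Finset.sup_le ?_
      intro i _
      by_contra hcon
      obtain ⟨G, h1, h2⟩ := lower n hn m hanti (fun i => by have := (hm i).2; omega) i N (by omega)
      rcases hN G with h | ⟨s, hs⟩
      · exact h1 h
      · exact h2 s hs

/-- Equal cycles: the number in closed form. -/
theorem ramsey_copies_full (n t m : ℕ) (hn : 2 ≤ n) (ht : 1 ≤ t) (hnm : n ≤ m) (hm : 3 ≤ m) :
    IsLeast {N : ℕ | ∀ G : SimpleGraph (Fin N),
      (cycleUnion fun _ : Fin t => m).IsContained G ∨ ∃ s : Finset (Fin N), G.IsNIndepSet n s}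
      ((m - 1) * (n - 1) + 1 + (t - 1) * m) ↔ ¬ (n = 3 ∧ t = 1 ∧ m = 3) := by
  have h := ramsey_full n t hn (fun _ => m) (fun _ _ _ => le_rfl) (fun _ => ⟨hnm, hm⟩)
  have e : (Finset.univ.sup fun i : Fin t => (n - 1) * (m - 1) + 1 +
      ∑ _j ∈ Finset.Iio i, m) = (m - 1) * (n - 1) + 1 + (t - 1) * m := by
    symm
    apply le_antisymm
    · have h1 := Finset.le_sup (f := fun i : Fin t => (n - 1) * (m - 1) + 1 +
        ∑ _j ∈ Finset.Iio i, m) (Finset.mem_univ (⟨t - 1, by omega⟩ : Fin t))
      refine le_trans (le_of_eq ?_) h1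
      simp only [Finset.sum_const, Fin.card_Iio, smul_eq_mul]
      rw [mul_comm (m - 1)]
    · refine Finset.sup_le ?_
      intro i _
      simp only [Finset.sum_const, Fin.card_Iio, smul_eq_mul]
      have h2 : (i : ℕ) * m ≤ (t - 1) * m := Nat.mul_le_mul_right _ (by have := i.2; omega)
      rw [mul_comm (m - 1)]
      omega
  rw [e] at h
  rw [h]
  constructor
  · intro h1 h2
    exact h1 ⟨h2.1, h2.2.1, fun _ => h2.2.2⟩
  · intro h1 h2
    exact h1 ⟨h2.1, h2.2.1, h2.2.2 ⟨0, by omega⟩⟩

end Vale.Agent.P048.H293
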