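import Vale.Agent.P048.Bdl.B1
import Vale.Agent.P048.H293.Defs

/-!
# The Ramsey number of a disjoint union of cycles versus a complete graph
-/

set_option autoImplicit false

open Finset

namespace Vale.Agent.P048.H293

/-- The single cycle in a graph with many vertices. -/
theorem one_cycle (n m : ℕ) (hn : 1 ≤ n) (hnm : n ≤ m) (hm : 4 ≤ m)
    {V : Type} [Fintype V] (G : SimpleGraph V)
    (hV : (n - 1) * (m - 1) + 1 ≤ Fintype.card V)
    (hG : ∀ s : Finset V, ¬ G.IsNIndepSet n s) :
    (SimpleGraph.cycleGraph m).IsContained G := by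
  classical
  obtain ⟨s, -, hs⟩ := Finset.exists_subset_card_eq (s := (Finset.univ : Finset V))
    (n := (n - 1) * (m - 1) + 1) (by rw [Finset.card_univ]; exact hV)
  have hs' : s.card = (m - 1) * (n - 1) + 1 := by rw [hs, mul_comm]
  let e : Fin ((m - 1) * (n - 1) + 1) ≃ s := (Finset.equivFinOfCardEq hs').symm
  let emb : Fin ((m - 1) * (n - 1) + 1) ↪ V := e.toEmbedding.trans (Function.Embedding.subtype _)
  rcases (Vale.Agent.P048.all_range m n hn hnm hm).1 (G.comap emb) with h | ⟨t, ht⟩
  · exact h.trans ⟨(SimpleGraph.Embedding.comap emb G).toCopy⟩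
  · exfalso
    apply hG (t.map emb)
    constructor
    · intro x hx y hy hxy hadj
      rw [Finset.mem_coe, Finset.mem_map] at hx hy
      obtain ⟨a, ha, rfl⟩ := hx
      obtain ⟨b, hb, rfl⟩ := hy
      exact ht.1 ha hb (fun h => hxy (by rw [h])) hadj
    · rw [Finset.card_map, ht.2]

/-- A graph on at least `(n - 1) (m - 1) + 1` vertices without independent set of `n` vertices
contains the cycle `C_m`. -/
def OneCycle (n m : ℕ) : Prop :=
  ∀ (V : Type) [Fintype V] (G : SimpleGraph V), (n - 1) * (m - 1) + 1 ≤ Fintype.card V →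
    (∀ s : Finset V, ¬ G.IsNIndepSet n s) → (SimpleGraph.cycleGraph m).IsContained G

theorem oneCycle_of (n m : ℕ) (hn : 1 ≤ n) (hnm : n ≤ m) (hm : 4 ≤ m) : OneCycle n m :=
  fun _ _ G hV hG => one_cycle n m hn hnm hm G hV hG

/-- No cycle at all. -/
theorem contained_zero (m : Fin 0 → ℕ) {V : Type} (G : SimpleGraph V) :
    (cycleUnion m).IsContained G := by
  refine ⟨⟨⟨fun x => x.1.elim0, ?_⟩, ?_⟩⟩
  · intro a b _
    exact a.1.elim0
  · intro a
    exact a.1.elim0

/-- Add one cycle. -/
theorem glue {t : ℕ} (m : Fin (t + 1) → ℕ) {V : Type} (G : SimpleGraph V)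
    (f : (SimpleGraph.cycleGraph (m 0)).Copy G) (S : Set V) (hS : ∀ a, f.toHom a ∉ S)
    (h : (cycleUnion (fun i => m i.succ)).IsContained (G.induce S)) :
    (cycleUnion m).IsContained G := by
  obtain ⟨g⟩ := h
  let F : (Σ i : Fin (t + 1), Fin (m i)) → V := fun x =>
    Fin.cases (motive := fun i => Fin (m i) → V) (fun a => f.toHom a)
      (fun i a => (g.toHom ⟨i, a⟩ : S).1) x.1 x.2
  have hF0 : ∀ a, F ⟨0, a⟩ = f.toHom a := fun a => rfl
  have hFs : ∀ (i : Fin t) (a : Fin (m i.succ)), F ⟨i.succ, a⟩ = (g.toHom ⟨i, a⟩ : S).1 :=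
    fun i a => rfl
  refine ⟨⟨⟨F, ?_⟩, ?_⟩⟩
  · rintro x y ⟨i, a, b, rfl, rfl, h⟩
    rcases Fin.eq_zero_or_eq_succ i with rfl | ⟨k, rfl⟩
    · rw [hF0, hF0]
      exact f.toHom.map_adj h
    · rw [hFs, hFs]
      have : (cycleUnion (fun i => m i.succ)).Adj ⟨k, a⟩ ⟨k, b⟩ := ⟨k, a, b, rfl, rfl, h⟩
      exact g.toHom.map_adj this
  · rintro ⟨i, a⟩ ⟨j, b⟩ h
    change F ⟨i, a⟩ = F ⟨j, b⟩ at h
    rcases Fin.eq_zero_or_eq_succ i with rfl | ⟨k, rfl⟩
    · rcases Fin.eq_zero_or_eq_succ j with rfl | ⟨l, rfl⟩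
      · rw [hF0, hF0] at h
        rw [f.injective h]
      · exfalso
        rw [hF0, hFs] at h
        apply hS a
        rw [h]
        exact (g.toHom ⟨l, b⟩).2
    · rcases Fin.eq_zero_or_eq_succ j with rfl | ⟨l, rfl⟩
      · exfalso
        rw [hF0, hFs] at h
        apply hS b
        rw [← h]
        exact (g.toHom ⟨k, a⟩).2
      · rw [hFs, hFs] at h
        have h2 := g.injective (Subtype.ext h)
        cases h2
        rfl

theorem indep_induce {n : ℕ} {V : Type} {G : SimpleGraph V} {S : Set V}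
    (hG : ∀ s : Finset V, ¬ G.IsNIndepSet n s) (s : Finset S) :
    ¬ (G.induce S).IsNIndepSet n s := by
  classical
  intro hs
  apply hG (s.map (Function.Embedding.subtype _))
  constructor
  · intro x hx y hy hxy hadj
    rw [Finset.mem_coe, Finset.mem_map] at hx hy
    obtain ⟨a, ha, rfl⟩ := hx
    obtain ⟨b, hb, rfl⟩ := hy
    exact hs.1 ha hb (fun h => hxy (by rw [h])) hadj
  · rw [Finset.card_map, hs.2]

/-- The vertices off a cycle. -/
theorem card_off {m : ℕ} {V : Type} [Fintype V] {G : SimpleGraph V}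
    (f : (SimpleGraph.cycleGraph m).Copy G) [Fintype {x : V | ∀ a, f.toHom a ≠ x}] :
    Fintype.card {x : V | ∀ a, f.toHom a ≠ x} + m = Fintype.card V := by
  classical
  let S : Finset V := Finset.univ.image f.toHom
  have hS : S.card = m := by
    rw [Finset.card_image_of_injective _ f.injective, Finset.card_univ, Fintype.card_fin]
  have h1 : Fintype.card {x : V | ∀ a, f.toHom a ≠ x} = (Finset.univ \ S).card := by
    rw [← Set.toFinset_card]
    congr 1
    ext x
    simp [S]
  rw [h1, Finset.card_sdiff_of_subset (Finset.subset_univ S), hS, Finset.card_univ]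
  have : m ≤ Fintype.card V := by
    rw [← hS]
    exact Finset.card_le_univ S
  omega

theorem sum_succ {t : ℕ} (m : Fin (t + 1) → ℕ) (i : Fin t) :
    ∑ j ∈ Finset.Iio i.succ, m j = m 0 + ∑ j ∈ Finset.Iio i, m j.succ := by
  have : Finset.Iio i.succ = insert 0 ((Finset.Iio i).map (Fin.succEmb t)) := by
    ext j
    simp only [Finset.mem_Iio, Finset.mem_insert, Finset.mem_map, Fin.coe_succEmb]
    constructor
    · intro hj
      rcases Fin.eq_zero_or_eq_succ j with rfl | ⟨k, rfl⟩
      · exact Or.inl rfl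
      · exact Or.inr ⟨k, Fin.succ_lt_succ_iff.1 hj, rfl⟩
    · rintro (rfl | ⟨k, hk, rfl⟩)
      · exact Fin.succ_pos i
      · exact Fin.succ_lt_succ_iff.2 hk
  rw [this, Finset.sum_insert, Finset.sum_map]
  · rfl
  · simp

/-- Greedy embedding. -/
theorem upper (n : ℕ) : ∀ (t : ℕ) (m : Fin t → ℕ) (_ : ∀ i, OneCycle n (m i))
    {V : Type} [Fintype V] (G : SimpleGraph V)
    (_ : ∀ i, (n - 1) * (m i - 1) + 1 + ∑ j ∈ Finset.Iio i, m j ≤ Fintype.card V)
    (_ : ∀ s : Finset V, ¬ G.IsNIndepSet n s), (cycleUnion m).IsContained G := by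
  classical
  intro t
  induction t with
  | zero =>
    intro m hm V _ G hV hG
    exact contained_zero m G
  | succ t ih =>
    intro m hm V _ G hV hG
    have h0 : (n - 1) * (m 0 - 1) + 1 ≤ Fintype.card V := by
      have := hV 0
      omega
    obtain ⟨f⟩ := hm 0 V G h0 hG
    have hW := card_off f
    refine glue m G f {x : V | ∀ a, f.toHom a ≠ x} (fun a h => h a rfl) ?_
    refine ih (fun i => m i.succ) (fun i => hm i.succ) _ ?_ (indep_induce hG)
    intro i
    have h1 := hV i.succ
    rw [sum_succ] at h1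
    omega

/-- Extremal colourings. -/
theorem lower (n : ℕ) (hn : 2 ≤ n) {t : ℕ} (m : Fin t → ℕ) (hanti : Antitone m)
    (hm : ∀ i, 2 ≤ m i) (i : Fin t) (N : ℕ)
    (hN : N ≤ (n - 1) * (m i - 1) + ∑ j ∈ Finset.Iio i, m j) :
    ∃ G : SimpleGraph (Fin N), ¬ (cycleUnion m).IsContained G ∧
      ∀ s : Finset (Fin N), ¬ G.IsNIndepSet n s := by
  classical
  set A : ℕ := (∑ j ∈ Finset.Iio i, m j) + (m i - 1) with hA
  set w : ℕ := m i - 1 with hw
  have hw0 : 0 < w := by have := hm i; omega
  have hcap : N ≤ A + (n - 2) * w := by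
    have : (n - 1) * w = (n - 2) * w + w := by
      obtain ⟨q, rfl⟩ : ∃ q, n = q + 2 := ⟨n - 2, by omega⟩
      simp only [Nat.add_sub_cancel]
      have : q + 2 - 1 = q + 1 := by omega
      rw [this]
      ring
    omega
  let c : Fin N → ℕ := fun x => if (x : ℕ) < A then 0 else ((x : ℕ) - A) / w + 1
  have hc : ∀ x, c x < n - 1 := by
    intro x
    simp only [c]
    split_ifs with h
    · omega
    · have h1 : (x : ℕ) - A < (n - 2) * w := by
        have := x.2
        omega
      have h2 := Nat.div_lt_of_lt_mul (by rw [mul_comm] at h1; exact h1 : (x : ℕ) - A < w * (n - 2))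
      omega
  let G : SimpleGraph (Fin N) :=
    { Adj := fun x y => x ≠ y ∧ c x = c y
      symm := by constructor; rintro x y ⟨h1, h2⟩; exact ⟨h1.symm, h2.symm⟩
      loopless := by constructor; rintro x ⟨h, -⟩; exact h rfl }
  refine ⟨G, ?_, ?_⟩
  · rintro ⟨f⟩
    have hconst : ∀ (j : Fin t) (a b : Fin (m j)), c (f.toHom ⟨j, a⟩) = c (f.toHom ⟨j, b⟩) := by
      intro j a b
      obtain ⟨p⟩ := SimpleGraph.cycleGraph_preconnected (n := m j) a b
      induction p with
      | nil => rfl
      | cons h _ ih =>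
        rename_i u v w' _
        have hadj : (cycleUnion m).Adj ⟨j, u⟩ ⟨j, v⟩ := ⟨j, u, v, rfl, rfl, h⟩
        exact (f.toHom.map_adj hadj).2.trans ih
    have hzero : ∀ (j : Fin t), j ≤ i → ∀ a : Fin (m j), ((f.toHom ⟨j, a⟩ : Fin N) : ℕ) < A := by
      intro j hj a
      by_contra hcon
      have hall : ∀ b : Fin (m j), ¬ ((f.toHom ⟨j, b⟩ : Fin N) : ℕ) < A ∧
          (((f.toHom ⟨j, b⟩ : Fin N) : ℕ) - A) / w = (((f.toHom ⟨j, a⟩ : Fin N) : ℕ) - A) / w := by
        intro b
        have h := hconst j b a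
        simp only [c] at h
        rw [if_neg hcon] at h
        split_ifs at h with h'
        exact ⟨h', by omega⟩
      have hinj : Function.Injective
          (fun b : Fin (m j) => (⟨(((f.toHom ⟨j, b⟩ : Fin N) : ℕ) - A) % w,
            Nat.mod_lt _ hw0⟩ : Fin w)) := by
        intro b b' hbb
        have h1 : (((f.toHom ⟨j, b⟩ : Fin N) : ℕ) - A) % w =
            (((f.toHom ⟨j, b'⟩ : Fin N) : ℕ) - A) % w := by
          simpa using hbb
        have h2 := (hall b).2.trans (hall b').2.symm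
        have h3 : ((f.toHom ⟨j, b⟩ : Fin N) : ℕ) - A = ((f.toHom ⟨j, b'⟩ : Fin N) : ℕ) - A := by
          rw [← Nat.div_add_mod (((f.toHom ⟨j, b⟩ : Fin N) : ℕ) - A) w,
            ← Nat.div_add_mod (((f.toHom ⟨j, b'⟩ : Fin N) : ℕ) - A) w, h1, h2]
        have h4 : ((f.toHom ⟨j, b⟩ : Fin N) : ℕ) = ((f.toHom ⟨j, b'⟩ : Fin N) : ℕ) := by
          have := (hall b).1
          have := (hall b').1
          omega
        have h5 : (f.toHom ⟨j, b⟩ : Fin N) = f.toHom ⟨j, b'⟩ := Fin.ext h4
        have h6 := f.injective h5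
        cases h6
        rfl
      have hcard := Fintype.card_le_of_injective _ hinj
      rw [Fintype.card_fin, Fintype.card_fin] at hcard
      have := hanti hj
      have := hm i
      omega
    let S : Finset (Σ j : Fin t, Fin (m j)) := (Finset.Iic i).sigma fun _ => Finset.univ
    have hScard : S.card = A + 1 := by
      rw [Finset.card_sigma]
      simp only [Finset.card_univ, Fintype.card_fin]
      have : Finset.Iic i = insert i (Finset.Iio i) := by
        ext j
        simp only [Finset.mem_Iic, Finset.mem_insert, Finset.mem_Iio]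
        exact le_iff_eq_or_lt
      rw [this, Finset.sum_insert (by simp)]
      have := hm i
      omega
    have hle : S.card ≤ (Finset.range A).card := by
      refine Finset.card_le_card_of_injOn (fun x => ((f.toHom x : Fin N) : ℕ)) ?_ ?_
      · rintro ⟨j, a⟩ hx
        rw [Finset.mem_coe, Finset.mem_sigma, Finset.mem_Iic] at hx
        simp only [Finset.coe_range, Set.mem_Iio]
        exact hzero j hx.1 a
      · intro x _ y _ hxy
        exact f.injective (Fin.ext hxy)
    rw [Finset.card_range, hScard] at hle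
    omega
  · intro s hs
    have hle : s.card ≤ (Finset.range (n - 1)).card := by
      refine Finset.card_le_card_of_injOn c ?_ ?_
      · intro x _
        simp only [Finset.coe_range, Set.mem_Iio]
        exact hc x
      · intro x hx y hy hxy
        by_contra hne
        exact hs.1 hx hy hne ⟨hne, hxy⟩
    rw [Finset.card_range, hs.2] at hle
    omega

/-- The Ramsey number of `C_{m 0} ∪ ⋯ ∪ C_{m (t-1)}` versus `K_n`. -/
theorem ramsey_cycleUnion (n t : ℕ) (hn : 2 ≤ n) (m : Fin t → ℕ) (hanti : Antitone m)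
    (hm : ∀ i, n ≤ m i ∧ 4 ≤ m i) :
    IsLeast {N : ℕ | ∀ G : SimpleGraph (Fin N),
      (cycleUnion m).IsContained G ∨ ∃ s : Finset (Fin N), G.IsNIndepSet n s}
      (Finset.univ.sup fun i : Fin t => (n - 1) * (m i - 1) + 1 + ∑ j ∈ Finset.Iio i, m j) := by
  classical
  constructor
  · intro G
    by_cases h : ∃ s, G.IsNIndepSet n s
    · exact Or.inr h
    · left
      push Not at h
      refine upper n t m (fun i => oneCycle_of n (m i) (by omega) (hm i).1 (hm i).2) G ?_ h
      intro i
      rw [Fintype.card_fin]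
      exact Finset.le_sup (f := fun i : Fin t => (n - 1) * (m i - 1) + 1 + ∑ j ∈ Finset.Iio i, m j)
        (Finset.mem_univ i)
  · intro N hN
    refine Finset.sup_le ?_
    intro i _
    by_contra hcon
    obtain ⟨G, h1, h2⟩ := lower n hn m hanti (fun i => by have := (hm i).2; omega) i N (by omega)
    rcases hN G with h | ⟨s, hs⟩
    · exact h1 h
    · exact h2 s hs

/-- Equal cycles: the number in closed form. -/
theorem ramsey_copies (n t m : ℕ) (hn : 2 ≤ n) (ht : 1 ≤ t) (hnm : n ≤ m) (hm : 4 ≤ m) :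
    IsLeast {N : ℕ | ∀ G : SimpleGraph (Fin N),
      (cycleUnion fun _ : Fin t => m).IsContained G ∨ ∃ s : Finset (Fin N), G.IsNIndepSet n s}
      ((m - 1) * (n - 1) + 1 + (t - 1) * m) := by
  have h := ramsey_cycleUnion n t hn (fun _ => m) (fun _ _ _ => le_rfl) (fun _ => ⟨hnm, hm⟩)
  convert h using 1
  apply le_antisymm
  · have h1 := Finset.le_sup (f := fun i : Fin t => (n - 1) * (m - 1) + 1 +
      ∑ _j ∈ Finset.Iio i, m) (Finset.mem_univ (⟨t - 1, by omega⟩ : Fin t))
    refine le_trans (le_of_eq ?_) h1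
    simp only [Finset.sum_const, Fin.card_Iio, smul_eq_mul]
    rw [mul_comm (m - 1)]
  · refine Finset.sup_le ?_
    intro i _
    simp only [Finset.sum_const, Fin.card_Iio, smul_eq_mul]
    have h2 : (i : ℕ) * m ≤ (t - 1) * m := Nat.mul_le_mul_right _ (by have := i.2; omega)
    rw [mul_comm (m - 1)]
    omega

end Vale.Agent.P048.H293
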