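import Vale.Agent.P048.Bdl.B1
import Vale.Agent.P048.H293.Main

/-!
# Triangles: the case `n = 3`
-/

set_option autoImplicit false

open Finset

namespace Vale.Agent.P048.H293

variable {V : Type}

/-- Among three distinct vertices two are adjacent. -/
def A2 (G : SimpleGraph V) : Prop :=
  ∀ a b c : V, a ≠ b → a ≠ c → b ≠ c → G.Adj a b ∨ G.Adj a c ∨ G.Adj b c

theorem a2_of {G : SimpleGraph V} (h : ∀ s : Finset V, ¬ G.IsNIndepSet 3 s) : A2 G := by
  classical
  intro a b c hab hac hbc
  by_contra hcon
  push Not at hcon
  obtain ⟨h1, h2, h3⟩ := hcon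
  apply h {a, b, c}
  constructor
  · intro x hx y hy hxy hadj
    simp only [coe_insert, coe_singleton, Set.mem_insert_iff, Set.mem_singleton_iff] at hx hy
    rcases hx with rfl | rfl | rfl <;> rcases hy with rfl | rfl | rfl
    · exact hxy rfl
    · exact h1 hadj
    · exact h2 hadj
    · exact h1 hadj.symm
    · exact hxy rfl
    · exact h3 hadj
    · exact h2 hadj.symm
    · exact h3 hadj.symm
    · exact hxy rfl
  · rw [Finset.card_eq_three]
    exact ⟨a, b, c, hab, hac, hbc, rfl⟩

/-- `G` has no triangle. -/
def TF (G : SimpleGraph V) : Prop := ∀ a b c : V, G.Adj a b → G.Adj a c → ¬ G.Adj b c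

/-- Copy of a triangle. -/
theorem copy_three {G : SimpleGraph V} {a b c : V} (hab : G.Adj a b) (hac : G.Adj a c)
    (hbc : G.Adj b c) : ∃ f : (SimpleGraph.cycleGraph 3).Copy G,
      ∀ i, f.toHom i = a ∨ f.toHom i = b ∨ f.toHom i = c := by
  let F : Fin 3 → V := ![a, b, c]
  have hadj : ∀ i j : Fin 3, i ≠ j → G.Adj (F i) (F j) := by
    intro i j hij
    fin_cases i <;> fin_cases j <;>
      first
        | exact absurd rfl hij
        | exact hab
        | exact hac
        | exact hbc
        | exact hab.symm
        | exact hac.symm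
        | exact hbc.symm
  refine ⟨⟨⟨F, fun {i j} h => hadj i j h.ne⟩, ?_⟩, ?_⟩
  · intro i j h
    by_contra hne
    exact (hadj i j hne).ne h
  · intro i
    fin_cases i
    · exact Or.inl rfl
    · exact Or.inr (Or.inl rfl)
    · exact Or.inr (Or.inr rfl)

/-- `R(3,3) ≤ 6`. -/
theorem r33 [Fintype V] {G : SimpleGraph V} (hG : A2 G) (hV : 6 ≤ Fintype.card V) : ¬ TF G := by
  classical
  intro hT
  have hne : Nonempty V := Fintype.card_pos_iff.1 (by omega)
  obtain ⟨v⟩ := hne
  let N : Finset V := Finset.univ.filter fun x => G.Adj v x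
  let M : Finset V := Finset.univ.filter fun x => x ≠ v ∧ ¬ G.Adj v x
  have hsum : N.card + M.card + 1 = Fintype.card V := by
    have h1 : (Finset.univ : Finset V) = insert v (N ∪ M) := by
      ext x
      simp only [N, M, mem_univ, mem_insert, mem_union, mem_filter, true_and, true_iff]
      by_cases h : x = v
      · exact Or.inl h
      · by_cases h' : G.Adj v x
        · exact Or.inr (Or.inl h')
        · exact Or.inr (Or.inr ⟨h, h'⟩)
    rw [← Finset.card_univ, h1, Finset.card_insert_of_notMem, Finset.card_union_of_disjoint]
    · rw [Finset.disjoint_left]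
      intro x hx hx'
      simp only [N, M, mem_filter, mem_univ, true_and] at hx hx'
      exact hx'.2 hx
    · simp [N, M]
  have hN : N.card ≤ 2 := by
    by_contra hcon
    obtain ⟨a, ha, b, hb, c, hc, hab, hac, hbc⟩ := Finset.two_lt_card.1 (by omega : 2 < N.card)
    simp only [N, mem_filter, mem_univ, true_and] at ha hb hc
    rcases hG a b c hab hac hbc with h | h | h
    · exact hT v a b ha hb h
    · exact hT v a c ha hc h
    · exact hT v b c hb hc h
  have hM : M.card ≤ 2 := by
    by_contra hcon
    obtain ⟨a, ha, b, hb, c, hc, hab, hac, hbc⟩ := Finset.two_lt_card.1 (by omega : 2 < M.card)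
    simp only [M, mem_filter, mem_univ, true_and] at ha hb hc
    have h1 : G.Adj a b := by
      rcases hG v a b ha.1.symm hb.1.symm hab with h | h | h
      · exact absurd h ha.2
      · exact absurd h hb.2
      · exact h
    have h2 : G.Adj a c := by
      rcases hG v a c ha.1.symm hc.1.symm hac with h | h | h
      · exact absurd h ha.2
      · exact absurd h hc.2
      · exact h
    have h3 : G.Adj b c := by
      rcases hG v b c hb.1.symm hc.1.symm hbc with h | h | h
      · exact absurd h hb.2
      · exact absurd h hc.2
      · exact h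
    exact hT a b c h1 h2 h3
  omega

/-- The pentagon. -/
theorem pentagon [Fintype V] {G : SimpleGraph V} (hG : A2 G) (hT : TF G)
    (hV : Fintype.card V = 5) :
    ∃ p : Fin 5 → V, Function.Injective p ∧ (∀ i, G.Adj (p i) (p (i + 1))) ∧
      ∀ i, ¬ G.Adj (p i) (p (i + 2)) := by
  classical
  have hdeg : ∀ v : V, (Finset.univ.filter fun x => G.Adj v x).card = 2 ∧
      (Finset.univ.filter fun x => x ≠ v ∧ ¬ G.Adj v x).card = 2 := by
    intro v
    set N : Finset V := Finset.univ.filter fun x => G.Adj v x with hNdef
    set M : Finset V := Finset.univ.filter fun x => x ≠ v ∧ ¬ G.Adj v x with hMdef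
    have hsum : N.card + M.card + 1 = Fintype.card V := by
      have h1 : (Finset.univ : Finset V) = insert v (N ∪ M) := by
        ext x
        simp only [N, M, mem_univ, mem_insert, mem_union, mem_filter, true_and, true_iff]
        by_cases h : x = v
        · exact Or.inl h
        · by_cases h' : G.Adj v x
          · exact Or.inr (Or.inl h')
          · exact Or.inr (Or.inr ⟨h, h'⟩)
      rw [← Finset.card_univ, h1, Finset.card_insert_of_notMem, Finset.card_union_of_disjoint]
      · rw [Finset.disjoint_left]
        intro x hx hx'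
        simp only [N, M, mem_filter, mem_univ, true_and] at hx hx'
        exact hx'.2 hx
      · simp [N, M]
    have hN : N.card ≤ 2 := by
      by_contra hcon
      obtain ⟨a, ha, b, hb, c, hc, hab, hac, hbc⟩ := Finset.two_lt_card.1 (by omega : 2 < N.card)
      simp only [N, mem_filter, mem_univ, true_and] at ha hb hc
      rcases hG a b c hab hac hbc with h | h | h
      · exact hT v a b ha hb h
      · exact hT v a c ha hc h
      · exact hT v b c hb hc h
    have hM : M.card ≤ 2 := by
      by_contra hcon
      obtain ⟨a, ha, b, hb, c, hc, hab, hac, hbc⟩ := Finset.two_lt_card.1 (by omega : 2 < M.card)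
      simp only [M, mem_filter, mem_univ, true_and] at ha hb hc
      have h1 : G.Adj a b := by
        rcases hG v a b ha.1.symm hb.1.symm hab with h | h | h
        · exact absurd h ha.2
        · exact absurd h hb.2
        · exact h
      have h2 : G.Adj a c := by
        rcases hG v a c ha.1.symm hc.1.symm hac with h | h | h
        · exact absurd h ha.2
        · exact absurd h hc.2
        · exact h
      have h3 : G.Adj b c := by
        rcases hG v b c hb.1.symm hc.1.symm hbc with h | h | h
        · exact absurd h hb.2
        · exact absurd h hc.2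
        · exact h
      exact hT a b c h1 h2 h3
    omega
  have hne : Nonempty V := Fintype.card_pos_iff.1 (by omega)
  obtain ⟨v⟩ := hne
  obtain ⟨a, b, hab, hN⟩ := Finset.card_eq_two.1 (hdeg v).1
  obtain ⟨c, d, hcd, hM⟩ := Finset.card_eq_two.1 (hdeg v).2
  have hNm : ∀ x, G.Adj v x ↔ x = a ∨ x = b := by
    intro x
    have : x ∈ Finset.univ.filter (fun x => G.Adj v x) ↔ x ∈ ({a, b} : Finset V) := by rw [hN]
    simpa using this
  have hMm : ∀ x, (x ≠ v ∧ ¬ G.Adj v x) ↔ x = c ∨ x = d := by
    intro x
    have : x ∈ Finset.univ.filter (fun x => x ≠ v ∧ ¬ G.Adj v x) ↔ x ∈ ({c, d} : Finset V) := by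
      rw [hM]
    simpa using this
  have hva : G.Adj v a := (hNm a).2 (Or.inl rfl)
  have hvb : G.Adj v b := (hNm b).2 (Or.inr rfl)
  have hc := (hMm c).2 (Or.inl rfl)
  have hd := (hMm d).2 (Or.inr rfl)
  have hadjcd : G.Adj c d := by
    rcases hG v c d hc.1.symm hd.1.symm hcd with h | h | h
    · exact absurd h hc.2
    · exact absurd h hd.2
    · exact h
  have hnab : ¬ G.Adj a b := hT v a b hva hvb
  have hac' : a ≠ c := fun h => hc.2 (h ▸ hva)
  have had' : a ≠ d := fun h => hd.2 (h ▸ hva)
  have hbc' : b ≠ c := fun h => hc.2 (h ▸ hvb)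
  have hbd' : b ≠ d := fun h => hd.2 (h ▸ hvb)
  -- the general construction, given `a ~ c`
  have key : ∀ a b c d : V, G.Adj v a → G.Adj v b → ¬ G.Adj v c → ¬ G.Adj v d → G.Adj c d →
      a ≠ b → a ≠ c → a ≠ d → b ≠ c → b ≠ d → c ≠ d → c ≠ v → d ≠ v → ¬ G.Adj a b →
      G.Adj a c → ∃ p : Fin 5 → V, Function.Injective p ∧ (∀ i, G.Adj (p i) (p (i + 1))) ∧
      ∀ i, ¬ G.Adj (p i) (p (i + 2)) := by
    intro a b c d hva hvb hvc hvd hcd hab hac had hbc hbd hcd' hcv hdv hnab hadjac
    have h1 : ¬ G.Adj a d := fun h => hT c a d hadjac.symm hcd h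
    have h2 : G.Adj b d := by
      rcases hG a b d hab had hbd with h | h | h
      · exact absurd h hnab
      · exact absurd h h1
      · exact h
    have h3 : ¬ G.Adj b c := fun h => hT d b c h2.symm hcd.symm h
    -- order v a c d b
    refine ⟨![v, a, c, d, b], ?_, ?_, ?_⟩
    · intro i j hij
      fin_cases i <;> fin_cases j <;>
        first
          | rfl
          | exact absurd hij hva.ne
          | exact absurd hij hva.ne'
          | exact absurd hij hvb.ne
          | exact absurd hij hvb.ne'
          | exact absurd hij hab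
          | exact absurd hij hab.symm
          | exact absurd hij hac
          | exact absurd hij hac.symm
          | exact absurd hij had
          | exact absurd hij had.symm
          | exact absurd hij hbc
          | exact absurd hij hbc.symm
          | exact absurd hij hbd
          | exact absurd hij hbd.symm
          | exact absurd hij hcd'
          | exact absurd hij hcd'.symm
          | exact absurd hij hcv
          | exact absurd hij hcv.symm
          | exact absurd hij hdv
          | exact absurd hij hdv.symm
    · intro i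
      fin_cases i
      · exact hva
      · exact hadjac
      · exact hcd
      · exact h2.symm
      · exact hvb.symm
    · intro i
      fin_cases i
      · exact hvc
      · exact h1
      · exact fun h => h3 h.symm
      · exact fun h => hvd h.symm
      · exact fun h => hnab h.symm
  rcases hG a b c hab hac' hbc' with h | h | h
  · exact absurd h hnab
  · exact key a b c d hva hvb hc.2 hd.2 hadjcd hab hac' had' hbc' hbd' hcd hc.1 hd.1 hnab h
  · exact key b a c d hvb hva hc.2 hd.2 hadjcd hab.symm hbc' hbd' hac' had' hcd hc.1 hd.1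
      (fun h => hnab h.symm) h

end Vale.Agent.P048.H293
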